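import Vale.Agent.P365.H219.TL2
import Vale.Agent.P365.T2.H320.PhiR

/-!
# P365-T2: mobile content, from the positions to the truncated field (helper282)

`row_bridge` : one row.  `mobc_bridge` : one site, pathwise.  `MobG_bridge` : averages,
`MobG (phi N) θ ≤ (2/3) MobG (fR N J) (θ/8) + 16 / (θ 4^J) M4G`.
-/

set_option linter.all false

namespace P365T2.H282

open Finset MeasureTheory Matrix Filter Topology
open P365L P365O P365T1 P365L.TL Vale.Agent.P365.J376 P365H219 P365T2.H320U
open P365T2.H37 (hk)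

/-- **one row**: mobile for `t` implies mobile for `h_b t`, or the row lives far away -/
theorem row_bridge {ι : Type*} [Fintype ι] {P t : ι → ℝ} (hP : ∀ y, 0 ≤ P y)
    (hP1 : ∑ y, P y = 1) (ht : ∀ y, 0 ≤ t y) {b θ : ℝ} (hb : 0 < b) (hθ : 0 < θ) (hθ1 : θ ≤ 1)
    (hmob : θ * ∑ y, P y * t y ≤ (∑ y, P y * Real.sqrt (t y)) ^ 2) :
    (∑ y, P y * t y ≤ 8 / 3 * ∑ y, P y * hk b (t y) ∧
      θ / 8 * ∑ y, P y * hk b (t y) ≤ (∑ y, P y * Real.sqrt (hk b (t y))) ^ 2) ∨
    ∑ y, P y * t y ≤ 4 / (θ * b) * ∑ y, P y * t y ^ 2 := by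
  classical
  set V := ∑ y, P y * t y with hV
  set L := ∑ y, P y * Real.sqrt (t y) with hL
  set far : ι → ℝ := fun y => if b < t y then 1 else 0 with hfar
  set F := ∑ y, P y * t y * far y with hF
  have hf0 : ∀ y, 0 ≤ far y := fun y => by simp only [hfar]; split_ifs <;> norm_num
  have hf1 : ∀ y, far y ≤ 1 := fun y => by simp only [hfar]; split_ifs <;> norm_num
  have hV0 : 0 ≤ V := Finset.sum_nonneg fun y _ => mul_nonneg (hP y) (ht y)
  have hL0 : 0 ≤ L := Finset.sum_nonneg fun y _ => mul_nonneg (hP y) (Real.sqrt_nonneg _)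
  have hF0 : 0 ≤ F := Finset.sum_nonneg fun y _ => mul_nonneg (mul_nonneg (hP y) (ht y)) (hf0 y)
  have hhk : ∀ y, (t y) / 2 * (1 - far y) ≤ hk b (t y) := by
    intro y
    unfold hk
    have h1 : 0 < b + t y := by linarith [ht y]
    simp only [hfar]
    split_ifs with h
    · rw [sub_self, mul_zero]
      exact div_nonneg (mul_nonneg hb.le (ht y)) h1.le
    · rw [sub_zero, mul_one, le_div_iff₀ h1]
      push Not at h
      nlinarith [ht y]
  have hhk' : ∀ y, hk b (t y) ≤ t y := fun y => P365T2.H37.hk_le_right hb (ht y)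
  have hhk0 : ∀ y, 0 ≤ hk b (t y) := by
    intro y
    unfold hk
    exact div_nonneg (mul_nonneg hb.le (ht y)) (by linarith [ht y])
  by_cases hcase : F ≤ θ / 4 * V
  · left
    constructor
    · have h1 : (V - F) / 2 ≤ ∑ y, P y * hk b (t y) := by
        have e : (V - F) / 2 = ∑ y, P y * (t y / 2 * (1 - far y)) := by
          rw [hV, hF, ← Finset.sum_sub_distrib, Finset.sum_div]
          exact Finset.sum_congr rfl fun y _ => by ring
        rw [e]
        exact Finset.sum_le_sum fun y _ => mul_le_mul_of_nonneg_left (hhk y) (hP y)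
      have h2 : F ≤ 1 / 4 * V := hcase.trans (by nlinarith)
      linarith
    · -- lower bound for the first moment
      set LF := ∑ y, P y * Real.sqrt (t y) * far y with hLF
      have hLF0 : 0 ≤ LF := Finset.sum_nonneg fun y _ =>
        mul_nonneg (mul_nonneg (hP y) (Real.sqrt_nonneg _)) (hf0 y)
      have h3 : LF ^ 2 ≤ F := by
        have h := Finset.sum_mul_sq_le_sq_mul_sq Finset.univ (fun y => Real.sqrt (P y))
          (fun y => Real.sqrt (P y) * Real.sqrt (t y) * far y)
        have e1 : ∀ y, Real.sqrt (P y) * (Real.sqrt (P y) * Real.sqrt (t y) * far y) =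
            P y * Real.sqrt (t y) * far y := fun y => by
          rw [← mul_assoc, ← mul_assoc, Real.mul_self_sqrt (hP y)]
        have e2 : ∀ y, Real.sqrt (P y) ^ 2 = P y := fun y => Real.sq_sqrt (hP y)
        have e3 : ∀ y, (Real.sqrt (P y) * Real.sqrt (t y) * far y) ^ 2 =
            P y * t y * far y := fun y => by
          rw [mul_pow, mul_pow, Real.sq_sqrt (hP y), Real.sq_sqrt (ht y)]
          simp only [hfar]
          split_ifs <;> ring
        simp only [e1, e2, e3, hP1, one_mul] at h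
        exact h
      have h4 : LF ≤ L / 2 := by
        refine le_of_sq_le_sq ?_ (by positivity)
        calc LF ^ 2 ≤ F := h3
          _ ≤ θ / 4 * V := hcase
          _ ≤ (L / 2) ^ 2 := by nlinarith
      have h5 : (L - LF) / Real.sqrt 2 ≤ ∑ y, P y * Real.sqrt (hk b (t y)) := by
        have e : (L - LF) / Real.sqrt 2 =
            ∑ y, P y * (Real.sqrt (t y) / Real.sqrt 2 * (1 - far y)) := by
          rw [hL, hLF, ← Finset.sum_sub_distrib, Finset.sum_div]
          exact Finset.sum_congr rfl fun y _ => by ring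
        rw [e]
        refine Finset.sum_le_sum fun y _ => mul_le_mul_of_nonneg_left ?_ (hP y)
        have h6 := hhk y
        simp only [hfar] at h6 ⊢
        split_ifs at h6 ⊢ with h
        · rw [sub_self, mul_zero]
          exact Real.sqrt_nonneg _
        · rw [sub_zero, mul_one] at h6 ⊢
          rw [← Real.sqrt_div (ht y)]
          exact Real.sqrt_le_sqrt h6
      have h6 : L / 2 / Real.sqrt 2 ≤ ∑ y, P y * Real.sqrt (hk b (t y)) := by
        refine le_trans ?_ h5
        exact div_le_div_of_nonneg_right (by linarith) (Real.sqrt_nonneg _)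
      have h7 : L ^ 2 / 8 ≤ (∑ y, P y * Real.sqrt (hk b (t y))) ^ 2 := by
        calc L ^ 2 / 8 = (L / 2 / Real.sqrt 2) ^ 2 := by
              rw [div_pow, div_pow, Real.sq_sqrt (by norm_num)]
              ring
          _ ≤ _ := pow_le_pow_left₀ (by positivity) h6 2
      have h8 : ∑ y, P y * hk b (t y) ≤ V :=
        Finset.sum_le_sum fun y _ => mul_le_mul_of_nonneg_left (hhk' y) (hP y)
      calc θ / 8 * ∑ y, P y * hk b (t y) ≤ θ / 8 * V :=
            mul_le_mul_of_nonneg_left h8 (by positivity)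
        _ = (θ * V) / 8 := by ring
        _ ≤ L ^ 2 / 8 := div_le_div_of_nonneg_right hmob (by norm_num)
        _ ≤ _ := h7
  · right
    push Not at hcase
    have h1 : F ≤ (∑ y, P y * t y ^ 2) / b := by
      rw [hF, Finset.sum_div]
      refine Finset.sum_le_sum fun y _ => ?_
      simp only [hfar]
      split_ifs with h
      · rw [mul_one, le_div_iff₀ hb]
        have := mul_le_mul_of_nonneg_left h.le (mul_nonneg (hP y) (ht y))
        nlinarith
      · rw [mul_zero]
        exact div_nonneg (mul_nonneg (hP y) (sq_nonneg _)) hb.le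
    have h2 : V ≤ 4 / θ * F := by
      rw [div_mul_eq_mul_div, le_div_iff₀ hθ]
      linarith
    calc V ≤ 4 / θ * F := h2
      _ ≤ 4 / θ * ((∑ y, P y * t y ^ 2) / b) := mul_le_mul_of_nonneg_left h1 (by positivity)
      _ = _ := by
          field_simp

section site

variable {N : ℕ} [NeZero N] {J : ℕ} {A : Matrix (Tor N) (Tor N) ℝ} {W : Tor N → ℂ}

theorem d2_phi (x y : Tor N) : d2 (phi N) x y = dsq x y := rfl

theorem d2_fR (x y : Tor N) : d2 (fR N J) x y = hk ((4 : ℝ) ^ J) (4 * dsq x y) := fR_spec x y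

/-- fourth moment of one row -/
noncomputable def f4 (A : Matrix (Tor N) (Tor N) ℝ) (W : Tor N → ℂ) (x : Tor N) : ℝ :=
  mm A W x * ∑ y, PP A W x y * dsq y x ^ 2

theorem f4_nonneg (hA : A.IsSymm) (hW : ∀ x, (W x).im < 0) (x : Tor N) : 0 ≤ f4 A W x :=
  mul_nonneg (mm_pos hA hW x).le (Finset.sum_nonneg fun y _ =>
    mul_nonneg (PP_nonneg hA hW x y) (sq_nonneg _))

/-- **one site, pathwise** -/
theorem mobc_bridge (hA : A.IsSymm) (hW : ∀ x, (W x).im < 0) {θ : ℝ} (hθ : 0 < θ)
    (hθ1 : θ ≤ 1) (x : Tor N) :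
    mobc A W (phi N) θ x ≤
      2 / 3 * mobc A W (fR N J) (θ / 8) x + 16 / (θ * 4 ^ J) * f4 A W x := by
  have h0 := mobc_nonneg hA hW (fR N J) (θ / 8) x
  have h4 := f4_nonneg hA hW x
  have hc : 0 ≤ 16 / (θ * (4 : ℝ) ^ J) := by positivity
  have hm := (mm_pos hA hW x).le
  by_cases hmob : θ * v2 A W (phi N) x ≤ l1 A W (phi N) x ^ 2
  · have e1 : ∑ y, PP A W x y * (4 * dsq y x) = 4 * v2 A W (phi N) x := by
      unfold v2
      rw [Finset.mul_sum]
      exact Finset.sum_congr rfl fun y _ => by rw [d2_phi]; ring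
    have e2 : ∑ y, PP A W x y * Real.sqrt (4 * dsq y x) = 2 * l1 A W (phi N) x := by
      unfold l1
      rw [Finset.mul_sum]
      refine Finset.sum_congr rfl fun y _ => ?_
      rw [d2_phi, Real.sqrt_mul (by norm_num), show (4 : ℝ) = 2 ^ 2 by norm_num,
        Real.sqrt_sq (by norm_num)]
      ring
    have e3 : ∑ y, PP A W x y * hk ((4 : ℝ) ^ J) (4 * dsq y x) = v2 A W (fR N J) x := by
      unfold v2
      exact Finset.sum_congr rfl fun y _ => by rw [d2_fR]
    have e4 : ∑ y, PP A W x y * Real.sqrt (hk ((4 : ℝ) ^ J) (4 * dsq y x)) =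
        l1 A W (fR N J) x := by
      unfold l1
      exact Finset.sum_congr rfl fun y _ => by rw [d2_fR]
    have h1 := row_bridge (fun y => PP_nonneg hA hW x y) (PP_sum hA hW x)
      (t := fun y => 4 * dsq y x) (fun y => by linarith [dsq_nonneg y x])
      (b := (4 : ℝ) ^ J) (by positivity) hθ hθ1 (by
        simp only [e1, e2]
        nlinarith)
    simp only [e1, e3, e4] at h1
    rcases h1 with ⟨h1, h2⟩ | h1
    · unfold mobc
      rw [if_pos hmob, if_pos h2]
      have h3 : v2 A W (phi N) x ≤ 2 / 3 * v2 A W (fR N J) x := by linarith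
      have := mul_le_mul_of_nonneg_left h3 hm
      nlinarith [mul_nonneg hc h4]
    · have h3 : v2 A W (phi N) x ≤ 16 / (θ * 4 ^ J) * ∑ y, PP A W x y * dsq y x ^ 2 := by
        have e5 : ∑ y, PP A W x y * (4 * dsq y x) ^ 2 =
            16 * ∑ y, PP A W x y * dsq y x ^ 2 := by
          rw [Finset.mul_sum]
          exact Finset.sum_congr rfl fun y _ => by ring
        rw [e5] at h1
        have : 16 / (θ * (4 : ℝ) ^ J) * ∑ y, PP A W x y * dsq y x ^ 2 =
            (4 / (θ * (4 : ℝ) ^ J) * (16 * ∑ y, PP A W x y * dsq y x ^ 2)) / 4 := by ring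
        linarith
      have h5 := mul_le_mul_of_nonneg_left h3 hm
      have h6 : mobc A W (phi N) θ x = mm A W x * v2 A W (phi N) x := by
        unfold mobc
        rw [if_pos hmob]
      rw [h6]
      unfold f4 at h4 ⊢
      nlinarith
  · have h6 : mobc A W (phi N) θ x = 0 := by
      unfold mobc
      rw [if_neg hmob]
    rw [h6]
    have := mul_nonneg hc h4
    linarith

end site

section avg

variable {N : ℕ} [NeZero N] {J : ℕ} {A : Matrix (Tor N) (Tor N) ℝ}
  {Λ : Type*} [Fintype Λ] {p : Λ → ℝ} {ν : Λ → Measure ℝ} {E : ℝ}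

theorem measurable_f4_WV (E : ℝ) (e : Tor N → ℝ) (x : Tor N) :
    Measurable fun v : Tor N → ℝ => f4 A (WV E e v) x := by
  unfold f4
  exact (measurable_mm_WV E e x).mul
    (Finset.measurable_sum _ fun y _ => (measurable_PP_WV E e x y).mul_const _)

theorem f4_le (hA : A.IsSymm) {W : Tor N → ℂ} (hW : ∀ x, (W x).im < 0) (x : Tor N) :
    f4 A W x ≤ mm A W x * ∑ y, dsq y x ^ 2 := by
  unfold f4
  refine mul_le_mul_of_nonneg_left (Finset.sum_le_sum fun y _ => ?_) (mm_pos hA hW x).le
  refine mul_le_of_le_one_left (sq_nonneg _) ?_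
  rw [← PP_sum hA hW x]
  exact Finset.single_le_sum (fun y _ => PP_nonneg hA hW x y) (Finset.mem_univ y)

theorem integrable_f4 (hA : A.IsSymm) (m : Measure (Tor N → ℝ)) [IsFiniteMeasure m] (E : ℝ)
    {e : Tor N → ℝ} (he : ∀ x, 0 < e x) (x : Tor N) :
    Integrable (fun v => f4 A (WV E e v) x) m := by
  refine Integrable.mono' ((integrable_mm hA m E he x).mul_const (∑ y, dsq y x ^ 2))
    (measurable_f4_WV E e x).aestronglyMeasurable (Eventually.of_forall fun v => ?_)
  rw [Real.norm_eq_abs, abs_of_nonneg (f4_nonneg hA (WV_neg he v) x)]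
  exact f4_le hA (WV_neg he v) x

/-- the fourth moment as a site functional -/
theorem M4G_eq (hA : A.IsSymm) [∀ k, IsProbabilityMeasure (ν k)]
    {e : (Tor N → Λ) → Tor N → ℝ} (he : ∀ l x, 0 < e l x) :
    M4G A p ν E (phi N) e = SG p ν E e e (fun W x => f4 A W x) := by
  unfold M4G SG AvG Ex
  refine Finset.sum_congr rfl fun l _ => ?_
  congr 1
  have h1 : ∀ v, (∑ x, ∑ y, (-((WV E (e l) v) x).im) * (-((WV E (e l) v) y).im) *
      KK A (WV E (e l) v) x y * d2 (phi N) x y ^ 2) =
      ∑ x, e l x * f4 A (WV E (e l) v) x := by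
    intro v
    refine Finset.sum_congr rfl fun x _ => ?_
    have hm := (mm_pos hA (WV_neg (E := E) (he l) v) x).ne'
    unfold f4 PP
    rw [Finset.mul_sum, Finset.mul_sum]
    refine Finset.sum_congr rfl fun y _ => ?_
    rw [d2_phi, show dsq x y = dsq y x by unfold dsq; exact Finset.sum_congr rfl fun i _ => by ring]
    simp only [WV_im0, neg_neg]
    field_simp
  simp only [h1]
  rw [integral_finset_sum]
  · exact Finset.sum_congr rfl fun x _ => integral_const_mul _ _
  · intro x _
    exact (integrable_f4 hA _ E (he l) x).const_mul _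

/-- **averages** -/
theorem MobG_bridge (hA : A.IsSymm) [∀ k, IsProbabilityMeasure (ν k)] (hp : ∀ k, 0 ≤ p k)
    {e w : (Tor N → Λ) → Tor N → ℝ} (he : ∀ l x, 0 < e l x) (hw0 : ∀ l x, 0 ≤ w l x)
    (hwe : ∀ l x, w l x ≤ e l x) {θ : ℝ} (hθ : 0 < θ) (hθ1 : θ ≤ 1) :
    MobG A p ν E (phi N) e w θ ≤
      2 / 3 * MobG A p ν E (fR N J) e w (θ / 8) +
        16 / (θ * 4 ^ J) * M4G A p ν E (phi N) e := by
  have h1 : MobG A p ν E (phi N) e w θ ≤ SG p ν E e w (fun W x =>
      2 / 3 * mobc A W (fR N J) (θ / 8) x + 16 / (θ * 4 ^ J) * f4 A W x) := by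
    refine SG_mono hp hw0 (fun l x => integrable_mobc hA _ E (he l) (phi N) θ x)
      (fun l x => ((integrable_mobc hA _ E (he l) (fR N J) (θ / 8) x).const_mul _).add
        ((integrable_f4 hA _ E (he l) x).const_mul _)) fun l v x => ?_
    exact mobc_bridge hA (WV_neg (he l) v) hθ hθ1 x
  refine h1.trans ?_
  have h2 : SG p ν E e w (fun W x =>
      2 / 3 * mobc A W (fR N J) (θ / 8) x + 16 / (θ * 4 ^ J) * f4 A W x) =
      2 / 3 * MobG A p ν E (fR N J) e w (θ / 8) +
        16 / (θ * 4 ^ J) * SG p ν E e w (fun W x => f4 A W x) := by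
    unfold MobG SG Ex
    rw [Finset.mul_sum, Finset.mul_sum, ← Finset.sum_add_distrib]
    refine Finset.sum_congr rfl fun l _ => ?_
    rw [mul_left_comm (2 / 3 : ℝ), mul_left_comm (16 / (θ * 4 ^ J) : ℝ), ← mul_add]
    congr 1
    rw [Finset.mul_sum, Finset.mul_sum, ← Finset.sum_add_distrib]
    refine Finset.sum_congr rfl fun x _ => ?_
    rw [integral_add ((integrable_mobc hA _ E (he l) (fR N J) (θ / 8) x).const_mul _)
      ((integrable_f4 hA _ E (he l) x).const_mul _), integral_const_mul, integral_const_mul]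
    ring
  rw [h2]
  have h3 : SG p ν E e w (fun W x => f4 A W x) ≤ M4G A p ν E (phi N) e := by
    rw [M4G_eq hA he]
    unfold SG Ex
    refine Finset.sum_le_sum fun l _ => mul_le_mul_of_nonneg_left
      (Finset.sum_le_sum fun x _ => mul_le_mul_of_nonneg_right (hwe l x) ?_)
      (Finset.prod_nonneg fun x _ => hp _)
    exact integral_nonneg fun v => f4_nonneg hA (WV_neg (he l) v) x
  have h4 : 0 ≤ 16 / (θ * (4 : ℝ) ^ J) := by positivity
  linarith [mul_le_mul_of_nonneg_left h3 h4]

end avg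

end P365T2.H282
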